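import Crest.Agent.X212.Msi61.Lt
import Crest.Agent.X212.Msi61.Ch
import Crest.Agent.X212.Trn40.Main
import Crest.Agent.X212.Nr74.Near
import Crest.Agent.X212.Msi61.Ker
import Crest.Agent.X212.Trn40.Sh
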